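import Mathlib.LinearAlgebra.FreeModule.ModN
import Mathlib.LinearAlgebra.Basis.VectorSpace
import Mathlib.Data.Nat.ChineseRemainder
import Vale.Agent.P016Z.Fin.Cls

/-!
P016: a class of primes modulo which finitely many given numbers are not squares.
-/

open NumberTheorySymbols Finset

namespace Vale.Agent.N016B

open Vale.Agent.P016Z

theorem k0 : ∀ x : ZMod 2, x = 1 ∨ x = 0 := by decide

theorem k : ∀ x : ZMod 2, x ≠ 0 → ∀ y : ZMod 2, y + x = 0 → y ≠ 0 := by decide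

theorem exists_chi (A : Finset ℚ)
    (h : ∀ T ⊆ A, ¬ IsSquare ((-3) ^ (T.card + 1) * ∏ a ∈ T, a)) :
    ∃ χ : ℚ → ℤ, (∀ a, χ a = 1 ∨ χ a = -1) ∧ (∀ a b, a ≠ 0 → b ≠ 0 → χ (a * b) = χ a * χ b) ∧
      χ (-3) = -1 ∧ ∀ a ∈ A, χ a = -1 := by
  classical
  obtain ⟨u, u1, u2⟩ : ∃ u : ℚ → ModN (Additive ℚˣ) 2,
      (∀ a b, a ≠ 0 → b ≠ 0 → u (a * b) = u a + u b) ∧ ∀ a, a ≠ 0 → u a = 0 → IsSquare a := by
    refine ⟨fun a => if h : a = 0 then 0 else ModN.mkQ 2 (Additive.ofMul (Units.mk0 a h)),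
      fun a b ha hb => ?_, fun a ha e => ?_⟩
    · simp only [dif_neg ha, dif_neg hb, dif_neg (mul_ne_zero ha hb), ← map_add, ← ofMul_mul,
        Units.mk0_mul]
    · simp only [dif_neg ha] at e
      obtain ⟨y, hy⟩ := (Submodule.Quotient.mk_eq_zero _).1 e
      refine ⟨(Additive.toMul y : ℚˣ), ?_⟩
      have := congrArg (fun x => ((Additive.toMul x : ℚˣ) : ℚ)) hy
      simpa [two_zsmul] using this.symm
  have h0 : ∀ a ∈ A, a ≠ 0 := by
    rintro a ha rfl
    exact h {0} (by simpa using ha) (by simp)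
  have u0 : u 1 = 0 := by simpa using u1 1 1 one_ne_zero one_ne_zero
  have hp : ∀ T ⊆ A, u (∏ a ∈ T, a) = ∑ a ∈ T, u a := by
    intro T hT
    induction T using Finset.induction_on with
    | empty => simpa using u0
    | insert a T ha ih =>
      have h1 := (subset_insert a T).trans hT
      rw [prod_insert ha, sum_insert ha, u1 _ _ (h0 a (hT (mem_insert_self a T)))
        (prod_ne_zero_iff.2 fun b hb => h0 b (h1 hb)), ih h1]
  have hw : ∀ n : ℕ, u ((-3) ^ n) = n • u (-3) := by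
    intro n
    induction n with
    | zero => simpa using u0
    | succ n ih => rw [pow_succ, u1 _ _ (by positivity) (by norm_num), ih, succ_nsmul]
  have h2 : ∀ x : ModN (Additive ℚˣ) 2, x + x = 0 := fun x => by
    rw [← two_smul (ZMod 2), show (2 : ZMod 2) = 0 from rfl, zero_smul]
  obtain ⟨f, f1, f2⟩ := Submodule.exists_le_ker_of_notMem (K := ZMod 2) (v := u (-3))
    (p := Submodule.span (ZMod 2) ((fun a => u a + u (-3)) '' A)) fun hm => by
      obtain ⟨c, hc⟩ := (Submodule.mem_span_image_finset_iff_exists_fun' _).1 hm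
      have hT := filter_subset (fun a => c a = 1) A
      refine h _ hT (u2 _ (mul_ne_zero (by positivity)
        (prod_ne_zero_iff.2 fun b hb => h0 b (hT hb))) ?_)
      rw [u1 _ _ (by positivity) (prod_ne_zero_iff.2 fun b hb => h0 b (hT hb)), hp _ hT, hw,
        succ_nsmul, add_right_comm, ← sum_const, ← sum_add_distrib, ← h2 (u (-3))]
      congr 1
      rw [sum_filter]
      refine Eq.trans (sum_congr rfl fun a _ => ?_) hc
      rcases k0 (c a) with e | e <;> simp [e, add_comm]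
  refine ⟨fun a => if f (u a) = 0 then 1 else -1, fun a => ?_, fun a b ha hb => ?_, if_neg f1,
    fun a ha => if_neg (k _ f1 _ ?_)⟩
  · by_cases e : f (u a) = 0 <;> simp [e]
  · simp only [u1 a b ha hb, map_add]
    rcases k0 (f (u a)) with e | e <;> rcases k0 (f (u b)) with e' | e' <;>
      simp [e, e', show (1 + 1 : ZMod 2) = 0 from rfl]
  · rw [← map_add]
    exact f2 (Submodule.subset_span ⟨a, ha, rfl⟩)

theorem exists_cls {χ : ℚ → ℤ} (h1 : ∀ a, χ a = 1 ∨ χ a = -1)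
    (h2 : ∀ a b, a ≠ 0 → b ≠ 0 → χ (a * b) = χ a * χ b) (h3 : χ (-3) = -1) {N : ℕ} (hN : N ≠ 0) :
    ∃ ρ : ℕ, ρ.Coprime (8 * N) ∧ (∀ l : ℕ, l.Prime → l ∣ 8 * N → ρ ≡ 1 [MOD l] → l = 2) ∧
      ∀ n : ℕ, n ≡ ρ [MOD 8 * N] → ∀ b : ℤ, b ∣ N → J(b | n) = χ b := by
  have key : ∀ q : ℕ, ∃ t : ℕ, q.Prime → ¬ q ∣ t ∧ (t ≡ 1 [MOD q] → q = 2) ∧
      (q = 2 → t = if χ (-1) = 1 then (if χ 2 = 1 then 1 else 5) else if χ 2 = 1 then 7 else 3) ∧
      (q ≠ 2 → J((t : ℤ) | q) = χ (if q % 4 = 1 then q else -q)) := by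
    intro q
    by_cases hq : q.Prime
    swap
    · exact ⟨0, fun h => (hq h).elim⟩
    by_cases q2 : q = 2
    · subst q2
      exact ⟨_, fun _ => ⟨by split_ifs <;> norm_num, fun _ => rfl, fun _ => rfl,
        fun h => (h rfl).elim⟩⟩
    by_cases q3 : q = 3
    · subst q3
      refine ⟨2, fun _ => ⟨by norm_num, by decide, by norm_num, fun _ => ?_⟩⟩
      norm_num [h3, Cls.jac_two (n := 3) (by decide)]
    obtain ⟨t, t1, t2, t3⟩ := Cls.exists_res hq (hq.five_le_of_ne_two_of_ne_three q2 q3)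
      (h1 (if q % 4 = 1 then q else -q))
    exact ⟨t, fun _ => ⟨t1, fun h => (t2 h).elim, fun h => (q2 h).elim, fun _ => t3⟩⟩
  choose t ht using key
  have h8 : 8 * N ≠ 0 := by omega
  obtain ⟨ρ, hρ⟩ := Nat.chineseRemainderOfFinset t (fun q => if q = 2 then 8 else q)
    (8 * N).primeFactors (fun q hq => by
      split_ifs
      exacts [by norm_num, (Nat.prime_of_mem_primeFactors hq).ne_zero]) fun q hq r hr e => by
      have a1 := Nat.prime_of_mem_primeFactors hq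
      have a2 := Nat.prime_of_mem_primeFactors hr
      have a3 := (Nat.coprime_primes a1 a2).2 e
      simp only [Function.onFun]
      split_ifs with c1 c2 c2
      · exact (e (c1.trans c2.symm)).elim
      · exact Nat.Coprime.pow_left 3 (c1 ▸ a3)
      · exact Nat.Coprime.pow_right 3 (c2 ▸ a3)
      · exact a3
  have hm : ∀ q : ℕ, q.Prime → q ∣ 8 * N → ρ ≡ t q [MOD q] := fun q a b =>
    (hρ q (Nat.mem_primeFactors.2 ⟨a, b, h8⟩)).of_dvd (by split_ifs with c <;> simp [c])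
  refine ⟨ρ, Nat.coprime_of_dvd fun q a b c => (ht q a).1 (((hm q a c).dvd_iff dvd_rfl).1 b),
    fun l a b c => (ht l a).2.1 ((hm l a b).symm.trans c), fun n hn => ?_⟩
  have e8 := (hn.of_dvd (dvd_mul_right 8 N)).trans
    (hρ 2 (Nat.mem_primeFactors.2 ⟨Nat.prime_two, by omega, h8⟩))
  rw [(ht 2 Nat.prime_two).2.2.1 rfl, Nat.ModEq] at e8
  obtain ⟨o1, o2, o3⟩ : Odd n ∧ (n % 4 = 1 ∧ χ (-1) = 1 ∨ n % 4 = 3 ∧ χ (-1) = -1) ∧
      J(2 | n) = χ 2 := by
    have a1 : Odd n := by rw [Nat.odd_iff]; split_ifs at e8 <;> omega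
    rw [Cls.jac_two a1]
    rcases h1 (-1) with a | a <;> rcases h1 2 with b | b <;> simp [a, b] at e8 ⊢ <;>
      refine ⟨a1, ?_⟩ <;> omega
  have c1 : χ 1 = 1 := by
    have := h2 1 1 one_ne_zero one_ne_zero
    rcases h1 1 with a | a
    · exact a
    · rw [mul_one, a] at this
      norm_num at this
  have cn : ∀ a : ℚ, a ≠ 0 → χ (-a) = χ (-1) * χ a := fun a ha => by
    rw [← h2 _ _ (by norm_num) ha, neg_one_mul]
  have hq : ∀ q : ℕ, q.Prime → q ∣ N → J((q : ℤ) | n) = χ q := by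
    intro q a b
    by_cases q2 : q = 2
    · subst q2
      exact o3
    have a1 := a.odd_of_ne_two q2
    have a2 := (Cls.jac_congr ((hn.of_dvd (b.mul_left 8)).trans (hm q a (b.mul_left 8)))).trans
      ((ht q a).2.2.2 q2)
    split_ifs at a2 with c
    · rw [jacobiSym.quadratic_reciprocity_one_mod_four c o1, a2]
    · rw [cn _ (by exact_mod_cast a.ne_zero)] at a2
      rcases o2 with ⟨o, o'⟩ | ⟨o, o'⟩
      · rw [jacobiSym.quadratic_reciprocity_one_mod_four' a1 o, a2, o', one_mul]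
      · rw [jacobiSym.quadratic_reciprocity_three_mod_four (by rw [Nat.odd_iff] at a1; omega) o,
          a2, o']
        ring
  have hb : ∀ b : ℕ, b ∣ N → J((b : ℤ) | n) = χ b := by
    intro b
    induction b using induction_on_primes with
    | zero => exact fun h => (hN (Nat.eq_zero_of_zero_dvd h)).elim
    | one => exact fun _ => by simp [c1]
    | prime_mul q b a ih =>
      intro h
      have b0 : b ≠ 0 := by rintro rfl; exact hN (by simpa using h)
      rw [Nat.cast_mul, jacobiSym.mul_left, hq q a ((dvd_mul_right q b).trans h),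
        ih ((dvd_mul_left b q).trans h), Nat.cast_mul,
        h2 _ _ (by exact_mod_cast a.ne_zero) (by exact_mod_cast b0)]
  intro b h
  obtain ⟨m, rfl | rfl⟩ := b.eq_nat_or_neg
  · exact_mod_cast hb m (by exact_mod_cast h)
  · have a1 : m ∣ N := by exact_mod_cast (neg_dvd.1 h)
    have b0 : m ≠ 0 := by rintro rfl; exact hN (by simpa using a1)
    rw [← neg_one_mul, jacobiSym.mul_left, hb m a1]
    push_cast
    rw [h2 _ _ (by norm_num) (by exact_mod_cast b0)]
    rcases o2 with ⟨o, o'⟩ | ⟨o, o'⟩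
    · rw [Cls.jac_sign1 (Or.inr rfl) o, o']
    · rw [Cls.jac_sign3 (Or.inr rfl) o, o']

/-- a class of primes modulo which no element of `A` is a square -/
theorem cls_many (A : Finset ℚ)
    (h : ∀ T ⊆ A, ¬ IsSquare ((-3) ^ (T.card + 1) * ∏ a ∈ T, a)) :
    ∃ v ρ : ℕ, v ≠ 0 ∧ ρ.Coprime v ∧ (∀ l : ℕ, l.Prime → l ∣ v → ρ ≡ 1 [MOD l] → l = 2) ∧
      ∀ n : ℕ, n ≡ ρ [MOD v] → ∀ a ∈ A, J(a.num * a.den | n) = -1 := by
  obtain ⟨χ, h1, h2, h3, h4⟩ := exists_chi A h
  have h0 : ∀ a ∈ A, a ≠ 0 := by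
    rintro a ha rfl
    exact h {0} (by simpa using ha) (by simp)
  have hN : ∏ a ∈ A, (a.num * a.den).natAbs ≠ 0 := prod_ne_zero_iff.2 fun a ha => by
    simpa using h0 a ha
  obtain ⟨ρ, r1, r2, r3⟩ := exists_cls h1 h2 h3 hN
  refine ⟨_, ρ, by omega, r1, r2, fun n hn a ha => ?_⟩
  have d0 : (a.den : ℚ) ≠ 0 := by exact_mod_cast a.den_nz
  rw [r3 n hn _ (Int.natAbs_dvd.1 (Int.natCast_dvd_natCast.2 (dvd_prod_of_mem _ ha)))]
  push_cast
  rw [← Rat.mul_den_eq_num, h2 _ _ (mul_ne_zero (h0 a ha) d0) d0, h2 _ _ (h0 a ha) d0, h4 a ha]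
  rcases h1 a.den with e | e <;> rw [e] <;> norm_num

end Vale.Agent.N016B
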