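import Mathlib.RingTheory.IsAdjoinRoot
import Mathlib.RingTheory.Polynomial.GaussLemma
import Mathlib.Analysis.Complex.Polynomial.Basic
import Mathlib.NumberTheory.NumberField.Norm
import Mathlib.NumberTheory.NumberField.House
import Mathlib.NumberTheory.NumberField.Discriminant.Basic

/-!
P016: roots of an integer polynomial modulo `p` come from primes of degree one of a number field.
-/

open NumberField Polynomial IntermediateField

namespace Vale.Agent.N016B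

/-- extension of a homomorphism from an order of index prime to `p` -/
theorem ext_hom {F k : Type} [Field F] [Field k] (A : Subalgebra ℤ F) (ψ : A →ₐ[ℤ] k) {D : ℤ}
    (hD : (D : k) ≠ 0) (h : ∀ x : 𝓞 F, D * (x : F) ∈ A) :
    ∃ φ : 𝓞 F →+* k, ∀ (x : 𝓞 F) (hx : (x : F) ∈ A), φ x = ψ ⟨x, hx⟩ := by
  have key : ∀ (x : F) (hx : x ∈ A) (h' : D * x ∈ A), ψ ⟨D * x, h'⟩ = D * ψ ⟨x, hx⟩ := by
    intro x hx h'
    rw [← map_intCast ψ, ← map_mul]
    rfl
  refine ⟨⟨⟨⟨fun x => ψ ⟨D * x, h x⟩ / D, ?_⟩, fun x y => ?_⟩, ?_, fun x y => ?_⟩, fun x hx => ?_⟩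
  · rw [div_eq_one_iff_eq hD, ← map_intCast ψ]
    congr 1
    ext
    simp
  · rw [div_mul_div_comm, ← map_mul, div_eq_div_iff hD (mul_ne_zero hD hD), ← mul_assoc,
      mul_left_inj' hD, mul_left_inj' hD |>.symm, mul_left_inj' hD, mul_comm,
      ← key _ (h (x * y)) (A.mul_mem (A.intCast_mem D) (h (x * y)))]
    congr 1
    ext
    simp only [MulMemClass.mk_mul_mk, map_mul]
    ring
  · rw [div_eq_zero_iff]
    exact Or.inl ((congrArg ψ (Subtype.ext (by simp))).trans (map_zero ψ))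
  · simp only [← add_div, ← map_add]
    refine congrArg (· / (D : k)) (congrArg ψ (Subtype.ext ?_))
    simp only [AddMemClass.mk_add_mk, map_add]
    ring
  · change ψ ⟨D * x, h x⟩ / D = _
    rw [key _ hx, mul_div_cancel_left₀ _ hD]

theorem exists_field {h : ℤ[X]} (hi : Irreducible h)
    (hz : ∀ z : ℂ, aeval z h = 0 → z ≠ 0 ∧ ∀ n, 0 < n → z ^ n ≠ 1) :
    ∃ (F : Type) (_ : Field F) (_ : NumberField F) (β γ : 𝓞 F) (D : ℕ), β ≠ 0 ∧ γ ≠ 0 ∧
      (∀ n, 0 < n → β ^ n ≠ γ ^ n) ∧ D ≠ 0 ∧ ∀ p : ℕ, p.Prime → ¬ p ∣ D → ∀ r : ZMod p,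
        aeval r h = 0 → ∃ φ : 𝓞 F →+* ZMod p, φ γ ≠ 0 ∧ φ β = φ γ * r := by
  have hs : h.leadingCoeff ≠ 0 := leadingCoeff_ne_zero.2 hi.ne_zero
  rcases Nat.eq_zero_or_pos h.natDegree with hd | hd
  · refine ⟨ℚ, inferInstance, inferInstance, 2, 1, h.leadingCoeff.natAbs, two_ne_zero, one_ne_zero,
      fun n hn e => ?_, Int.natAbs_ne_zero.2 hs, fun p hp h1 r h2 => (h1 ?_).elim⟩
    · rw [one_pow] at e
      have : 2 ^ n = 1 := by exact_mod_cast e
      exact hn.ne' (Nat.pow_eq_one.1 this |>.resolve_left (by norm_num))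
    · rw [eq_C_of_natDegree_eq_zero hd, aeval_C, eq_intCast,
        ZMod.intCast_zmod_eq_zero_iff_dvd] at h2
      rw [leadingCoeff, hd]
      exact Int.natCast_dvd.1 h2
  obtain ⟨z, hz0⟩ : ∃ z : ℂ, aeval z h = 0 := IsAlgClosed.exists_aeval_eq_zero_of_injective ℂ
    (algebraMap ℤ ℂ).injective_int h (natDegree_pos_iff_degree_pos.1 hd).ne'
  obtain ⟨z1, z2⟩ := hz z hz0
  obtain ⟨s, hsd⟩ : ∃ s, s = h.leadingCoeff := ⟨_, rfl⟩
  have hw : IsIntegral ℤ ((s : ℂ) * z) := by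
    have := isIntegral_leadingCoeff_smul h z hz0
    rwa [← hsd, zsmul_eq_mul] at this
  rw [← hsd] at hs
  have hsC : (s : ℂ) ≠ 0 := by exact_mod_cast hs
  obtain ⟨w, hwd⟩ : ∃ w, w = (s : ℂ) * z := ⟨_, rfl⟩
  rw [← hwd] at hw
  obtain ⟨F, _, _, B, ι, hg⟩ : ∃ (F : Type) (_ : Field F) (_ : NumberField F) (B : PowerBasis ℚ F)
      (ι : F →ₐ[ℤ] ℂ), ι B.gen = w := by
    have hwQ : IsIntegral ℚ w := hw.tower_top
    have := adjoin.finiteDimensional hwQ
    exact ⟨ℚ⟮w⟯, inferInstance, NumberField.of_module_finite ℚ _, adjoin.powerBasis hwQ,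
      (algebraMap ℚ⟮w⟯ ℂ).toIntAlgHom, rfl⟩
  have hint : IsIntegral ℤ B.gen := (isIntegral_algHom_iff ι ι.toRingHom.injective).1 (hg ▸ hw)
  obtain ⟨D, hD0, hD⟩ : ∃ D : ℤ, D ≠ 0 ∧ ∀ x : 𝓞 F, D * (x : F) ∈ Algebra.adjoin ℤ {B.gen} := by
    obtain ⟨D, hD⟩ := IsIntegrallyClosed.isIntegral_iff.1 (Algebra.discr_isIntegral (R := ℤ) ℚ
      (b := B.basis) fun i => by rw [B.basis_eq_pow]; exact hint.pow _)
    refine ⟨D, fun e => Algebra.discr_not_zero_of_basis ℚ B.basis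
      (hD.symm.trans (by rw [e, map_zero])), fun x => ?_⟩
    rw [← zsmul_eq_mul, ← algebraMap_smul ℚ, hD]
    exact Algebra.discr_mul_isIntegral_mem_adjoin ℚ hint x.isIntegral_coe
  have hdvd : h ∣ (minpoly ℤ B.gen).comp (C s * X) := by
    have hp := hi.isPrimitive hd.ne'
    refine hp.dvd_of_fraction_map_dvd_fraction_map (K := ℚ) ?_
    refine ((hp.irreducible_iff_irreducible_map_fraction_map.1 hi).dvd_iff_aeval_eq_zero (b := z)
      (by rw [aeval_map_algebraMap]; exact hz0)).1 ?_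
    rw [aeval_map_algebraMap, aeval_comp, map_mul, aeval_C, aeval_X, eq_intCast, ← hwd, ← hg,
      aeval_algHom_apply, minpoly.aeval, map_zero]
  obtain ⟨β, hβ⟩ : ∃ β : 𝓞 F, algebraMap (𝓞 F) F β = B.gen := ⟨⟨_, hint⟩, rfl⟩
  refine ⟨F, inferInstance, inferInstance, β, s, (D * s).natAbs, fun e => ?_,
    by exact_mod_cast hs, fun n hn e => z2 n hn ?_, Int.natAbs_ne_zero.2 (mul_ne_zero hD0 hs),
    fun p hp h1 r h2 => ?_⟩
  · rw [← hβ, e, map_zero, map_zero, hwd] at hg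
    exact mul_ne_zero hsC z1 hg.symm
  · have := congrArg (fun x => ι (algebraMap (𝓞 F) F x)) e
    simp only [map_pow, hβ, hg, map_intCast, hwd, mul_pow] at this
    exact mul_left_cancel₀ (pow_ne_zero n hsC) (this.trans (mul_one _).symm)
  have := Fact.mk hp
  rw [← Int.natCast_dvd, ← ZMod.intCast_zmod_eq_zero_iff_dvd, Int.cast_mul, mul_eq_zero,
    not_or] at h1
  have h3 : aeval ((s : ZMod p) * r) (minpoly ℤ (Algebra.adjoin.powerBasis' hint).gen) = 0 := by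
    obtain ⟨q, hq⟩ := hdvd
    have := congrArg (aeval r) hq
    rwa [map_mul, h2, zero_mul, aeval_comp, map_mul, aeval_C, aeval_X, eq_intCast,
      Algebra.adjoin.powerBasis'_minpoly_gen hint] at this
  obtain ⟨φ, hφ⟩ := ext_hom _ ((Algebra.adjoin.powerBasis' hint).lift _ h3) h1.1 hD
  refine ⟨φ, by rw [map_intCast]; exact h1.2, ?_⟩
  rw [hφ β (by rw [RingOfIntegers.coe_eq_algebraMap, hβ]; exact Algebra.self_mem_adjoin_singleton ℤ _),
    map_intCast]
  refine (congrArg _ (Subtype.ext ?_)).trans ((Algebra.adjoin.powerBasis' hint).lift_gen _ h3)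
  rw [Algebra.adjoin.powerBasis'_gen]
  exact hβ

/-- a prime of degree one which divides `x` divides an integer of bounded size -/
theorem dvd_norm {F : Type} [Field F] [NumberField F] {x : 𝓞 F} (hx : x ≠ 0) :
    ∃ N : ℕ, N ≠ 0 ∧ (N : ℝ) ≤ house (x : F) ^ Module.finrank ℚ F ∧
      ∀ (p : ℕ) (φ : 𝓞 F →+* ZMod p), φ x = 0 → p ∣ N := by
  refine ⟨Ideal.absNorm (Ideal.span {x}), by simpa using hx, ?_, fun p φ h => ?_⟩
  · obtain ⟨σ⟩ : Nonempty (F →+* ℂ) := inferInstance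
    have h1 := norm_norm_le_norm_mul_house_pow (x : F) σ
    rw [← Algebra.coe_norm_int, Int.norm_cast_rat, Int.norm_eq_abs] at h1
    rw [Ideal.absNorm_span_singleton, Nat.cast_natAbs, Int.cast_abs]
    refine h1.trans ((mul_le_mul_of_nonneg_right (norm_embedding_le_house _ σ)
      (pow_nonneg (house_nonneg _) _)).trans (le_of_eq ?_))
    rw [← pow_succ', Nat.sub_add_cancel Module.finrank_pos]
  · obtain ⟨c, hc⟩ := Ideal.mem_span_singleton'.1 (Ideal.absNorm_mem (Ideal.span {x}))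
    rw [← ZMod.natCast_eq_zero_iff, ← map_natCast φ, ← hc, map_mul, h, mul_zero]

end Vale.Agent.N016B
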