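import Mathlib.NumberTheory.NumberField.House
import Vale.Agent.P016Z.Cheb.Kum

/-!
P016: Kummer extensions of a number field.
-/

open NumberField Finset Polynomial

namespace Vale.Agent.N016B

open Vale.Agent.P016Z

/-- a ring endomorphism that preserves `P` and fixes `a` fixes radicals which split modulo `P` -/
theorem fix_root {R : Type*} [CommRing R] [IsDomain R] (P : Ideal R) [P.IsPrime] {p n : ℕ}
    (hp : p.Prime) (hpP : (p : R) ∈ P) (hn : n ∣ p - 1) {a : R}
    (h1 : a ^ ((p - 1) / n) - 1 ∈ P) (σ : R →+* R) (hσ : ∀ x ∈ P, σ x ∈ P) (ha : σ a = a) {β : R}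
    (hβ : β ^ n = a) : σ β = β := by
  have : CharP (R ⧸ P) p := (CharP.charP_iff_prime_eq_zero hp).2 (by
    rw [← map_natCast (Ideal.Quotient.mk P), Ideal.Quotient.eq_zero_iff_mem]; exact hpP)
  have hp1 := hp.one_lt
  have hn0 : n ≠ 0 := by rintro rfl; have := Nat.eq_zero_of_zero_dvd hn; omega
  have h2 : (Ideal.Quotient.mk P β) ^ (p - 1) = 1 := by
    rw [← Ideal.Quotient.eq, map_one, ← hβ, ← pow_mul, Nat.mul_div_cancel' hn, map_pow] at h1
    exact h1
  have hx0 : Ideal.Quotient.mk P β ≠ 0 := fun h => by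
    rw [h, zero_pow (by omega)] at h2
    exact zero_ne_one h2
  have h3 : (Ideal.Quotient.mk P β) ^ p = Ideal.Quotient.mk P β := by
    have : p = (p - 1) + 1 := by omega
    conv_lhs => rw [this, pow_succ, h2, one_mul]
  obtain ⟨c, hc⟩ := exists_nat_of_pow_eq hp h3
  have h4 : β - c ∈ P := by
    rw [← Ideal.Quotient.eq, map_natCast]; exact hc
  have h5 : Ideal.Quotient.mk P (σ β) = Ideal.Quotient.mk P β := by
    have := hσ _ h4
    rw [map_sub, map_natCast, ← Ideal.Quotient.eq, map_natCast] at this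
    rw [this, hc]
  have h6 := geom_sum₂_mul (σ β) β n
  rw [← map_pow, hβ, ha, sub_self, mul_eq_zero] at h6
  rcases h6 with h6 | h6
  · exfalso
    have h7 := congrArg (Ideal.Quotient.mk P) h6
    simp only [map_sum, map_mul, map_pow, h5, map_zero] at h7
    rw [geom_sum₂_self, mul_eq_zero] at h7
    rcases h7 with h7 | h7
    · have := Nat.le_of_dvd (Nat.pos_of_ne_zero hn0) ((CharP.cast_eq_zero_iff (R ⧸ P) p n).1 h7)
      have := Nat.le_of_dvd (by omega) hn
      omega
    · exact pow_ne_zero _ hx0 h7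
  · exact sub_eq_zero.1 h6

variable {F K : Type} [Field F] [NumberField F] [Field K] [NumberField K] [Algebra F K]

open scoped Pointwise

/-- a prime of degree one modulo which `a` is an `n`-th power splits completely -/
theorem le_aK [IsGalois F K] {p n : ℕ} (hp : p.Prime) (hn : n ∣ p - 1) {a : 𝓞 F}
    (φ : 𝓞 F →+* ZMod p) (h1 : φ a ^ ((p - 1) / n) = 1)
    (hadj : Algebra.adjoin F {β : K | β ^ n = algebraMap F K a} = ⊤) :
    Module.finrank F K ≤ aK K p := by
  have := Fact.mk hp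
  have hn0 : n ≠ 0 := by
    rintro rfl
    have := Nat.eq_zero_of_zero_dvd hn
    have := hp.one_lt
    omega
  have : (RingHom.ker φ).IsPrime := RingHom.ker_isPrime φ
  have hq : Ideal.absNorm (RingHom.ker φ) = p := by
    rw [Ideal.absNorm_apply, Submodule.cardQuot_apply,
      Nat.card_congr (RingHom.quotientKerEquivOfSurjective (ZMod.ringHom_surjective φ)).toEquiv,
      Nat.card_zmod]
  have hq0 : RingHom.ker φ ≠ ⊥ := fun e => hp.ne_zero (by rw [← hq, e, Ideal.absNorm_bot])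
  obtain ⟨h2, h3⟩ := split_of_stab (L := K) (RingHom.ker φ) hq0 fun P hP σ hσ => by
    have := hP.1
    have := hP.2
    have hm : ∀ x : 𝓞 F, φ x = 0 → algebraMap (𝓞 F) (𝓞 K) x ∈ P := fun x hx => by
      have h4 : x ∈ RingHom.ker φ := hx
      rw [Ideal.over_def P (RingHom.ker φ), Ideal.under, Ideal.mem_comap] at h4
      exact h4
    refine AlgEquiv.coe_toAlgHom_injective (AlgHom.ext_of_adjoin_eq_top hadj fun β hβ => ?_)
    have hβ : β ^ n = algebraMap F K a := hβ
    have e0 : algebraMap (𝓞 K) K (algebraMap (𝓞 F) (𝓞 K) a) = algebraMap F K a := rfl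
    have hint : IsIntegral ℤ β := IsIntegral.of_pow (Nat.pos_of_ne_zero hn0) (by
      rw [hβ, ← e0]; exact (algebraMap (𝓞 F) (𝓞 K) a).isIntegral_coe)
    obtain ⟨y, rfl⟩ : ∃ y : 𝓞 K, algebraMap (𝓞 K) K y = β := ⟨⟨β, hint⟩, rfl⟩
    have h5 := fix_root P hp (by simpa using hm p (by simp)) hn (a := algebraMap (𝓞 F) (𝓞 K) a)
      (by simpa using hm (a ^ ((p - 1) / n) - 1) (by rw [map_sub, map_pow, h1, map_one, sub_self]))
      (MulSemiringAction.toRingHom Gal(K/F) (𝓞 K) σ)
      (fun x hx => by rw [← hσ]; exact Ideal.smul_mem_pointwise_smul σ x P hx)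
      (RingOfIntegers.coe_injective (σ.commutes (a : F)))
      (β := y) (RingOfIntegers.coe_injective (by rw [map_pow, e0]; exact hβ))
    exact congrArg (algebraMap (𝓞 K) K) h5
  rw [← h2, aK]
  exact Set.ncard_le_ncard (t := {I : Ideal (𝓞 K) | Ideal.absNorm I = p})
    (fun P hP => (h3 P hP).trans hq) (Ideal.finite_setOfPred_absNorm_eq p)

omit [NumberField F] [NumberField K] in
/-- the radicals of the powers of `a` span a field generated by radicals of `a` -/
theorem span_top {a : F} (ha : a ≠ 0) {l : ℕ} (hl : 1 < l)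
    (hadj : Algebra.adjoin F {β : K | β ^ l = algebraMap F K a} = ⊤) :
    Submodule.span F {x : K | ∃ j < l, x ^ l = algebraMap F K a ^ j} = ⊤ := by
  set M : Set K := {x : K | ∃ j < l, x ^ l = algebraMap F K a ^ j} with hM
  have ha' : algebraMap F K a ≠ 0 := (_root_.map_ne_zero _).2 ha
  have hmul : ∀ x ∈ M, ∀ y ∈ M, x * y ∈ Submodule.span F M := by
    rintro x ⟨j, hj, hx⟩ y ⟨k, hk, hy⟩
    by_cases h : j + k < l
    · exact Submodule.subset_span ⟨j + k, h, by rw [mul_pow, hx, hy, pow_add]⟩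
    · have e : x * y = a • (x * y / algebraMap F K a) := by
        rw [Algebra.smul_def]; field_simp
      rw [e]
      refine Submodule.smul_mem _ _ (Submodule.subset_span ⟨j + k - l, by omega, ?_⟩)
      rw [div_pow, mul_pow, hx, hy, ← pow_add, pow_sub₀ _ ha' (by omega), div_eq_mul_inv]
  have h1 : (1 : K) ∈ Submodule.span F M := Submodule.subset_span ⟨0, by omega, by simp⟩
  rw [eq_top_iff]
  intro x _
  have hx : x ∈ Algebra.adjoin F {β : K | β ^ l = algebraMap F K a} := by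
    rw [hadj]; exact Algebra.mem_top
  induction hx using Algebra.adjoin_induction with
  | mem y hy => exact Submodule.subset_span ⟨1, hl, by rw [pow_one]; exact hy⟩
  | algebraMap r => rw [Algebra.algebraMap_eq_smul_one]; exact Submodule.smul_mem _ _ h1
  | add y z _ _ h2 h3 => exact Submodule.add_mem _ (h2 trivial) (h3 trivial)
  | mul y z _ _ h2 h3 =>
    have := Submodule.mul_mem_mul (h2 trivial) (h3 trivial)
    rw [Submodule.span_mul_span] at this
    refine Submodule.span_le.2 ?_ this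
    rintro _ ⟨u, hu, v, hv, rfl⟩
    exact hmul u hu v hv

theorem size_le {a : 𝓞 F} (ha : a ≠ 0) {l : ℕ} (hl : 1 < l) {B : ℝ} (hB : 1 ≤ B)
    (h1 : ∀ i, house (integralBasis F i) ≤ B) (h2 : house (a : F) ≤ B ^ l)
    (hadj : Algebra.adjoin F {β : K | β ^ l = algebraMap F K a} = ⊤) :
    size K ≤ (Module.finrank ℚ F : ℝ) * (1 + 2 * Module.finrank ℚ F + 4 * Real.log B) *
      (l : ℝ) ^ 4 := by
  classical
  have hsp := span_top (RingOfIntegers.coe_ne_zero_iff.2 ha) hl hadj
  have e0 : ∀ x : 𝓞 F, IsIntegral ℤ (algebraMap F K x) := fun x =>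
    (algebraMap (𝓞 F) (𝓞 K) x).isIntegral_coe
  have hd := kum_discr_span (Set.range (integralBasis F) •
      {x : K | ∃ j < l, x ^ l = algebraMap F K a ^ j}) (B := B * B ^ l) (by
      rintro _ ⟨_, ⟨i, rfl⟩, x, ⟨j, _, hx⟩, rfl⟩
      simp only [Algebra.smul_def, integralBasis_apply]
      exact (e0 _).mul (IsIntegral.of_pow (by omega) (hx ▸ (e0 a).pow j))) (by
      rintro _ ⟨_, ⟨i, rfl⟩, x, ⟨j, hj, hx⟩, rfl⟩ φ
      simp only [Algebra.smul_def, map_mul, norm_mul]
      refine mul_le_mul ((norm_embedding_le_house _ (φ.comp (algebraMap F K))).trans (h1 i)) ?_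
        (norm_nonneg _) (by linarith)
      refine le_of_pow_le_pow_left₀ (n := l) (by omega) (by positivity) ?_
      rw [← norm_pow, ← map_pow, hx, map_pow, norm_pow]
      exact (pow_le_pow_left₀ (norm_nonneg _)
        ((norm_embedding_le_house _ (φ.comp (algebraMap F K))).trans h2) j).trans
        (pow_le_pow_right₀ (one_le_pow₀ hB) hj.le))
    (by rw [Submodule.span_smul_of_span_eq_top (integralBasis F).span_eq, hsp]; rfl)
  have hn : Module.finrank F K ≤ l * l := by
    have e : {x : K | ∃ j < l, x ^ l = algebraMap F K a ^ j} =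
        ((range l).biUnion fun j => (nthRoots l (algebraMap F K a ^ j)).toFinset : Finset K) := by
      ext x
      simp [mem_nthRoots (by omega : 0 < l)]
    rw [← finrank_top, ← hsp, e]
    refine (finrank_span_finset_le_card _).trans (card_biUnion_le.trans ?_)
    refine (sum_le_card_nsmul _ _ l fun j _ => ?_).trans (by simp)
    exact (Multiset.toFinset_card_le _).trans (card_nthRoots _ _)
  have ht := Module.finrank_mul_finrank ℚ F K
  set n := Module.finrank ℚ K with hndef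
  set d := Module.finrank ℚ F
  have hn0 : 0 < n := Module.finrank_pos
  have hD : (0 : ℝ) < |(discr K : ℝ)| := by
    have := discr_ne_zero K
    positivity
  have hf : ((n.factorial : ℕ) : ℝ) ≤ (n : ℝ) ^ n := by exact_mod_cast n.factorial_le_pow
  have hn1 : (1 : ℝ) ≤ n := by exact_mod_cast hn0
  have hlog : Real.log |(discr K : ℝ)| ≤ 2 * (n * (Real.log n + (l + 1) * Real.log B)) := by
    have h1 : |(discr K : ℝ)| ≤ ((n * B ^ (l + 1)) ^ n) ^ 2 := by
      refine hd.trans ?_
      rw [mul_pow (n : ℝ), pow_succ' B]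
      gcongr
    refine (Real.log_le_log hD h1).trans (le_of_eq ?_)
    rw [Real.log_pow, Real.log_pow, Real.log_mul (by positivity) (by positivity), Real.log_pow]
    norm_num
  have h2 : Real.log n ≤ n := (Real.log_le_sub_one_of_pos (by positivity)).trans (by linarith)
  have h3 : 0 ≤ Real.log B := Real.log_nonneg hB
  have hl1 : (1 : ℝ) ≤ l := by exact_mod_cast hl.le
  have h4 : (n : ℝ) ≤ d * (l : ℝ) ^ 2 := by
    rw [sq, ← ht]; exact_mod_cast Nat.mul_le_mul_left d hn
  have h9 : (l : ℝ) ^ 2 ≤ (l : ℝ) ^ 4 := pow_le_pow_right₀ hl1 (by norm_num)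
  have h5 : (n : ℝ) * Real.log n ≤ d * d * (l : ℝ) ^ 4 := by
    calc (n : ℝ) * Real.log n ≤ n * n := by gcongr
      _ ≤ (d * (l : ℝ) ^ 2) * (d * (l : ℝ) ^ 2) := by gcongr
      _ = _ := by ring
  have h6 : (n : ℝ) ≤ d * (l : ℝ) ^ 4 := h4.trans (by gcongr)
  have h8 : (n : ℝ) * ((l + 1) * Real.log B) ≤ d * (2 * Real.log B) * (l : ℝ) ^ 4 := by
    have : (l : ℝ) + 1 ≤ 2 * (l : ℝ) ^ 2 := by nlinarith
    calc _ ≤ (d * (l : ℝ) ^ 2) * (2 * (l : ℝ) ^ 2 * Real.log B) := by gcongr
      _ = _ := by ring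
  unfold size
  rw [← hndef]
  linarith

/-- `β / γ` is an `l`-th power for finitely many `l` only -/
theorem fin_pow {β γ : 𝓞 F} (hβ : β ≠ 0) (hγ : γ ≠ 0) (h : ∀ n, 0 < n → β ^ n ≠ γ ^ n) :
    {l : ℕ | ∃ b : F, b ^ (l + 1) = β * γ ^ l}.Finite := by
  have hγ' : (γ : F) ≠ 0 := RingOfIntegers.coe_ne_zero_iff.2 hγ
  have hβ' : (β : F) ≠ 0 := RingOfIntegers.coe_ne_zero_iff.2 hβ
  refine ((Embeddings.finite_of_norm_le F ℂ (max (house (β : F)) (house (γ : F)))).biUnion
    (t := fun b => {l : ℕ | b ^ (l + 1) = β * γ ^ l}) fun b _ => ?_).subset ?_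
  · have key : ∀ l l' : ℕ, b ^ (l + 1) = β * γ ^ l → b ^ (l' + 1) = β * γ ^ l' → ¬ l < l' := by
      intro l l' h1 h2 h3
      obtain ⟨n, rfl⟩ := Nat.exists_eq_add_of_lt h3
      have h4 : b ^ (n + 1) = γ ^ (n + 1) := by
        refine mul_left_cancel₀ (mul_ne_zero hβ' (pow_ne_zero l hγ')) ?_
        rw [mul_assoc _ _ ((γ : F) ^ (n + 1)), ← pow_add, ← add_assoc, ← h2, ← h1, ← pow_add]
        congr 1
        ring
      refine h (n + 1) n.succ_pos (RingOfIntegers.coe_injective ?_)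
      refine mul_right_cancel₀ (pow_ne_zero (l * (n + 1)) hγ') ?_
      have h5 : (b ^ (l + 1)) ^ (n + 1) = (b ^ (n + 1)) ^ (l + 1) := by ring
      rw [h1, h4] at h5
      rw [map_pow, map_pow]
      linear_combination h5
    exact Set.Subsingleton.finite fun l hl l' hl' =>
      le_antisymm (not_lt.1 (key _ _ hl' hl)) (not_lt.1 (key _ _ hl hl'))
  · rintro l ⟨b, hb⟩
    refine Set.mem_biUnion (x := b) ⟨IsIntegral.of_pow l.succ_pos
      (hb ▸ β.isIntegral_coe.mul (γ.isIntegral_coe.pow l)), fun φ => ?_⟩ hb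
    refine le_of_pow_le_pow_left₀ l.succ_ne_zero ((house_nonneg _).trans (le_max_left _ _)) ?_
    rw [← norm_pow, ← map_pow, hb, map_mul, map_pow, norm_mul, norm_pow, pow_succ']
    exact mul_le_mul ((norm_embedding_le_house _ φ).trans (le_max_left _ _))
      (pow_le_pow_left₀ (norm_nonneg _) ((norm_embedding_le_house _ φ).trans (le_max_right _ _)) l)
      (by positivity) ((house_nonneg _).trans (le_max_left _ _))

/-- the Kummer field of `β / γ` and `l` -/
theorem kumF {β γ : 𝓞 F} (hβ : β ≠ 0) (hγ : γ ≠ 0) (h : ∀ n, 0 < n → β ^ n ≠ γ ^ n) :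
    ∃ (C : ℝ) (l₀ : ℕ), ∀ l : ℕ, l.Prime → l₀ ≤ l →
      ∃ (K : Type) (_ : Field K) (_ : NumberField K) (_ : IsTotallyComplex K),
        size K ≤ C * (l : ℝ) ^ 4 ∧ ∀ p : ℕ, p.Prime → l ∣ p - 1 → ∀ φ : 𝓞 F →+* ZMod p,
          φ (β * γ ^ (l - 1)) ^ ((p - 1) / l) = 1 → l * (l - 1) ≤ Module.finrank ℚ F * aK K p := by
  obtain ⟨l₀, hl₀⟩ := (fin_pow hβ hγ h).bddAbove
  obtain ⟨B₁, hB₁⟩ := (Set.finite_range fun i => house (integralBasis F i)).bddAbove
  obtain ⟨B, b1, b2, b3, b4⟩ : ∃ B : ℝ, 1 ≤ B ∧ B₁ ≤ B ∧ house (β : F) ≤ B ∧ house (γ : F) ≤ B :=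
    ⟨max (max 1 B₁) (max (house (β : F)) (house (γ : F))), by simp, by simp, by simp, by simp⟩
  refine ⟨(Module.finrank ℚ F : ℝ) * (1 + 2 * Module.finrank ℚ F + 4 * Real.log B), l₀ + 3,
    fun l hl hal => ?_⟩
  obtain ⟨a, ha⟩ : ∃ a, a = β * γ ^ (l - 1) := ⟨_, rfl⟩
  have ha0 : a ≠ 0 := ha ▸ mul_ne_zero hβ (pow_ne_zero _ hγ)
  have hl1 : l - 1 + 1 = l := by omega
  have hirr : Irreducible (X ^ l - C (a : F)) := by
    refine X_pow_sub_C_irreducible_of_prime hl fun b hb => ?_
    have : l - 1 ≤ l₀ := hl₀ ⟨b, by rw [hl1, hb, ha]; simp⟩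
    omega
  have hl2 : 2 < l := by omega
  obtain ⟨f, hf⟩ : ∃ f : F[X], f = X ^ l - C (a : F) := ⟨_, rfl⟩
  rw [← hf] at hirr
  have hdeg : f.natDegree = l := by rw [hf]; exact natDegree_X_pow_sub_C
  obtain ⟨K, _, inst, hK⟩ : ∃ (K : Type) (_ : Field K) (_ : Algebra F K), IsSplittingField F K f :=
    ⟨f.SplittingField, inferInstance, _, IsSplittingField.splittingField f⟩
  have := IsSplittingField.finiteDimensional K f
  have : NumberField K := NumberField.of_module_finite F K
  have : IsGalois F K := IsGalois.of_separable_splitting_field hirr.separable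
  have hroot : ∀ β : K, β ∈ f.rootSet K → β ^ l = algebraMap F K a := by
    intro β hβ
    have := (mem_rootSet.1 hβ).2
    rw [hf, map_sub, map_pow, aeval_X, aeval_C, sub_eq_zero] at this
    exact this
  have hadj : Algebra.adjoin F {β : K | β ^ l = algebraMap F K a} = ⊤ := by
    rw [eq_top_iff, ← IsSplittingField.adjoin_rootSet K f]
    exact Algebra.adjoin_mono hroot
  have hcard := card_rootSet_eq_natDegree hirr.separable (IsSplittingField.splits K f)
  obtain ⟨x, y, hxy⟩ := Fintype.exists_pair_of_one_lt_card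
    (α := f.rootSet K) (by rw [hcard, hdeg]; omega)
  have ha' : algebraMap F K a ≠ 0 :=
    (_root_.map_ne_zero _).2 (RingOfIntegers.coe_ne_zero_iff.2 ha0)
  have hy0 : (y : K) ≠ 0 := fun e => ha' (by rw [← hroot y y.2, e, zero_pow hl.ne_zero])
  have hζ : IsPrimitiveRoot ((x : K) / y) l := by
    have := Fact.mk hl
    have e : orderOf ((x : K) / y) = l := orderOf_eq_prime
      (by rw [div_pow, hroot x x.2, hroot y y.2, div_self ha'])
      (fun e => hxy (Subtype.ext (eq_of_div_eq_one e)))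
    rw [← e]
    exact IsPrimitiveRoot.orderOf _
  have : IsTotallyComplex K :=
    nrRealPlaces_eq_zero_iff.1 (InfinitePlace.IsPrimitiveRoot.nrRealPlaces_eq_zero_of_two_lt hl2 hζ)
  refine ⟨K, inferInstance, inferInstance, inferInstance,
    size_le ha0 hl.one_lt b1 (fun i => (hB₁ ⟨i, rfl⟩).trans b2) ?_ hadj, ?_⟩
  · rw [ha, ← hl1, pow_succ', Nat.add_sub_cancel]
    push_cast
    exact (house_mul_le _ _).trans (mul_le_mul b3 ((house_pow_le _ _).trans
      (pow_le_pow_left₀ (house_nonneg _) b4 _)) (house_nonneg _) (by linarith))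
  intro p hp h1 φ h3
  have ht := Module.finrank_mul_finrank ℚ F K
  have h4 : l ∣ Module.finrank ℚ K :=
    ht ▸ (hdeg ▸ hirr.natDegree_dvd_finrank (IsSplittingField.splits K f)).mul_left _
  have h5 : l - 1 ∣ Module.finrank ℚ K := by
    rw [← Nat.totient_prime hl, ← natDegree_cyclotomic l ℚ, cyclotomic_eq_minpoly_rat hζ hl.pos]
    exact minpoly.degree_dvd (Algebra.IsIntegral.isIntegral _)
  have h6 : l.Coprime (l - 1) := by
    conv_lhs => rw [← hl1]
    simp
  have h7 := Nat.le_of_dvd Module.finrank_pos (h6.mul_dvd_of_dvd_of_dvd h4 h5)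
  rw [← ht] at h7
  exact h7.trans (Nat.mul_le_mul_left _ (le_aK hp h1 φ (ha ▸ h3) hadj))

end Vale.Agent.N016B
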