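import Vale.Agent.N016.Cheb
import Vale.Agent.N016B.Kum
import Vale.Agent.N016B.Fld
import Vale.Agent.P016Z.Fin.Artin

/-!
P016: primes modulo which a root of a polynomial is an `l`-th power or has small order.
-/

open NumberField Finset Polynomial

namespace Vale.Agent.N016B

open Vale.Agent.P016Z Vale.Agent.N016

/-- `l ∣ p - 1` and a root of `g` modulo `p` is a nonzero `l`-th power -/
def Bd (g : ℤ[X]) (l p : ℕ) : Prop :=
  p.Prime ∧ l ∣ p - 1 ∧ ∃ r : ZMod p, aeval r g = 0 ∧ r ^ ((p - 1) / l) = 1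

open Classical in
/-- few primes are bad for `l` -/
def SP (δ : ℝ) (g : ℤ[X]) : Prop := ∃ (D C : ℝ) (l₀ : ℕ), 0 ≤ D ∧ 0 ≤ C ∧ ∀ l : ℕ, l.Prime →
  l₀ ≤ l → ∀ X Y : ℕ, 2 ≤ X → X ≤ Y → Y ≤ 2 * X → (((Ioc X Y).filter (Bd g l)).card : ℝ) ≤
    D * ((Y - X) / Real.log X) / (l : ℝ) ^ 2 + C * ((l : ℝ) ^ 2 * (X : ℝ) ^ (1 - δ))

/-- few primes have a root of small order -/
def SO (g : ℤ[X]) : Prop := ∃ E : ℕ, ∀ K : ℕ, 1 ≤ K → ∃ T : Finset ℕ, T.card ≤ E * (K * K) ∧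
  ∀ p m : ℕ, p.Prime → 1 ≤ m → m ≤ K → ∀ r : ZMod p, aeval r g = 0 → r = 0 ∨ r ^ m = 1 → p ∈ T

/-- no root is zero or a root of unity -/
def NR (g : ℤ[X]) : Prop := ∀ z : ℂ, aeval z g = 0 → z ≠ 0 ∧ ∀ n, 0 < n → z ^ n ≠ 1

theorem so_irr {h : ℤ[X]} (hi : Irreducible h) (hz : NR h) : SO h := by
  classical
  obtain ⟨F, _, _, β, γ, D, b0, -, b2, b3, b4⟩ := exists_field hi hz
  obtain ⟨N₀, n1, -, n2⟩ := dvd_norm b0
  obtain ⟨k, hk⟩ := pow_unbounded_of_one_lt (max (house (β : F)) (house (γ : F))) one_lt_two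
  have key : ∀ m : ℕ, ∃ N : ℕ, 1 ≤ m → N ≠ 0 ∧ N ≤ 2 ^ ((k + 1) * Module.finrank ℚ F * m) ∧
      ∀ (p : ℕ) (φ : 𝓞 F →+* ZMod p), φ (β ^ m - γ ^ m) = 0 → p ∣ N := by
    intro m
    rcases Nat.eq_zero_or_pos m with rfl | hm
    · exact ⟨0, fun h => absurd h (by norm_num)⟩
    obtain ⟨N, c1, c2, c3⟩ := dvd_norm (sub_ne_zero.2 (b2 m hm))
    refine ⟨N, fun _ => ⟨c1, ?_, c3⟩⟩
    have c4 : house ((β ^ m - γ ^ m : 𝓞 F) : F) ≤ 2 ^ ((k + 1) * m) := by
      have c5 : ∀ x : F, house x ≤ 2 ^ k → house (x ^ m) ≤ 2 ^ (k * m) := fun x hx =>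
        (house_pow_le _ _).trans ((pow_le_pow_left₀ (house_nonneg _) hx m).trans_eq
          (pow_mul _ _ _).symm)
      have c6 : house ((β : F) ^ m - (γ : F) ^ m) ≤ house ((β : F) ^ m) + house ((γ : F) ^ m) := by
        unfold house
        rw [map_sub]
        exact norm_sub_le _ _
      have c7 : (2 : ℝ) ^ (k * m + 1) ≤ 2 ^ ((k + 1) * m) :=
        pow_le_pow_right₀ one_le_two (by rw [add_mul]; omega)
      push_cast
      linarith [c5 _ ((le_max_left _ _).trans hk.le), c5 _ ((le_max_right _ _).trans hk.le),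
        pow_succ (2 : ℝ) (k * m)]
    have c8 := c2.trans (pow_le_pow_left₀ (house_nonneg _) c4 _)
    rw [← pow_mul, mul_right_comm] at c8
    exact_mod_cast c8
  choose N hN using key
  refine ⟨D * N₀ + (k + 1) * Module.finrank ℚ F, fun K hK => ⟨(D * N₀).primeFactors ∪
    (Icc 1 K).biUnion fun m => (N m).primeFactors, ?_, fun p m hp m1 m2 r h1 h2 => ?_⟩⟩
  · refine (card_union_le _ _).trans ?_
    rw [add_mul]
    refine add_le_add ((Art.card_primeFactors_le (mul_ne_zero b3 n1) Nat.lt_two_pow_self.le).trans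
      (Nat.le_mul_of_pos_right _ (Nat.mul_pos hK hK))) (card_biUnion_le.trans ?_)
    refine (sum_le_card_nsmul _ _ ((k + 1) * Module.finrank ℚ F * K) fun m hm => ?_).trans
      (le_of_eq (by simp only [Nat.card_Icc, smul_eq_mul, Nat.add_sub_cancel]; ring))
    obtain ⟨m1, m2⟩ := mem_Icc.1 hm
    exact (Art.card_primeFactors_le (hN m m1).1 (hN m m1).2.1).trans (Nat.mul_le_mul_left _ m2)
  by_cases h3 : p ∣ D
  · exact mem_union_left _ (Nat.mem_primeFactors.2 ⟨hp, h3.mul_right _, mul_ne_zero b3 n1⟩)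
  obtain ⟨φ, -, h4⟩ := b4 p hp h3 r h1
  rcases h2 with rfl | h2
  · exact mem_union_left _ (Nat.mem_primeFactors.2
      ⟨hp, (n2 p φ (by rw [h4, mul_zero])).mul_left _, mul_ne_zero b3 n1⟩)
  · refine mem_union_right _ (mem_biUnion.2 ⟨m, mem_Icc.2 ⟨m1, m2⟩,
      Nat.mem_primeFactors.2 ⟨hp, (hN m m1).2.2 p φ ?_, (hN m m1).1⟩⟩)
    rw [map_sub, map_pow, map_pow, h4, mul_pow, h2, mul_one, sub_self]

/-- primes of degree one, with a fixed exponent -/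
def CH (δ : ℝ) : Prop := ∃ C : ℝ, 0 ≤ C ∧ ∀ (K : Type) [Field K] [NumberField K]
  [IsTotallyComplex K] (X Y : ℕ), 2 ≤ X → X ≤ Y → Y ≤ 2 * X →
    ((∑ p ∈ (Ioc X Y).filter Nat.Prime, aK K p : ℕ) : ℝ) ≤
      (Y - X) / Real.log X + C * size K * (X : ℝ) ^ (1 - δ)

theorem ch_of (h : CHEB1) : ∃ δ : ℝ, 0 < δ ∧ δ ≤ 1 / 2 ∧ CH δ := by
  obtain ⟨C, δ, h0, h1, h2⟩ := h
  refine ⟨min (1 / 2) δ, lt_min (by norm_num) h1, min_le_left _ _, C, h0,
    fun K _ _ _ X Y a b c => (h2 K X Y a b c).trans (add_le_add le_rfl ?_)⟩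
  have b3 : (1 : ℝ) ≤ X := by exact_mod_cast (by omega : 1 ≤ X)
  exact mul_le_mul_of_nonneg_left (Real.rpow_le_rpow_of_exponent_le b3
    (by linarith [min_le_right (1 / 2) δ]))
    (mul_nonneg h0 ((Nat.cast_nonneg _).trans (Cheb.finrank_le_size K)))

theorem sp_irr {δ : ℝ} (hδ : δ ≤ 1) (hC : CH δ) {h : ℤ[X]} (hi : Irreducible h) (hz : NR h) :
    SP δ h := by
  classical
  obtain ⟨F, _, _, β, γ, D, b0, b1, b2, b3, b4⟩ := exists_field hi hz
  obtain ⟨C, hC0, hC⟩ := hC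
  obtain ⟨C', l₀, hK⟩ := kumF b0 b1 b2
  set d := Module.finrank ℚ F
  refine ⟨2 * d, 2 * d * C * |C'| + D, l₀, by positivity, by positivity,
    fun l hl hal X Y hX hY hY2 => ?_⟩
  obtain ⟨K, _, _, _, hs, hb⟩ := hK l hl hal
  have h1 := hC K X Y hX hY hY2
  have h0 : ((Ioc X Y).filter (Bd h l)).card ≤
      ((Ioc X Y).filter fun p => Bd h l p ∧ ¬ p ∣ D).card + D := by
    refine (card_le_card (t := ((Ioc X Y).filter fun p => Bd h l p ∧ ¬ p ∣ D) ∪ D.primeFactors)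
      fun p hp => ?_).trans ((card_union_le _ _).trans
        (add_le_add le_rfl (Art.card_primeFactors_le b3 Nat.lt_two_pow_self.le)))
    obtain ⟨p1, p2⟩ := mem_filter.1 hp
    by_cases p3 : p ∣ D
    · exact mem_union_right _ (Nat.mem_primeFactors.2 ⟨p2.1, p3, b3⟩)
    · exact mem_union_left _ (mem_filter.2 ⟨p1, p2, p3⟩)
  have h2 : ((Ioc X Y).filter fun p => Bd h l p ∧ ¬ p ∣ D).card * (l * (l - 1)) ≤
      d * ∑ p ∈ (Ioc X Y).filter Nat.Prime, aK K p := by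
    rw [← smul_eq_mul, mul_sum]
    refine (card_nsmul_le_sum _ (fun p => d * aK K p) _ fun p hp => ?_).trans
      (sum_le_sum_of_subset (monotone_filter_right _ fun p _ hp => hp.1.1))
    obtain ⟨⟨p1, p2, r, p3, p4⟩, p5⟩ := (mem_filter.1 hp).2
    obtain ⟨φ, p6, p7⟩ := b4 p p1 p5 r p3
    have := Fact.mk p1
    refine hb p p1 p2 φ ?_
    rw [map_mul, map_pow, p7, mul_right_comm, ← pow_succ', Nat.sub_add_cancel hl.one_le, mul_pow,
      p4, mul_one, ← pow_mul, Nat.mul_div_cancel' p2, ZMod.pow_card_sub_one_eq_one p6]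
  have hl2 : (2 : ℝ) ≤ l := by exact_mod_cast hl.two_le
  have h3 := (Nat.cast_le (α := ℝ)).2 h2
  rw [Nat.cast_mul, Nat.cast_mul, Nat.cast_mul, Nat.cast_sub hl.one_le, Nat.cast_one] at h3
  have h0' := (Nat.cast_le (α := ℝ)).2 h0
  rw [Nat.cast_add] at h0'
  refine h0'.trans ?_
  generalize (((Ioc X Y).filter fun p => Bd h l p ∧ ¬ p ∣ D).card) = N at h3
  have hN0 : (0 : ℝ) ≤ N := Nat.cast_nonneg _
  have hB : 1 ≤ (X : ℝ) ^ (1 - δ) :=
    Real.one_le_rpow (by exact_mod_cast (by omega : 1 ≤ X)) (by linarith)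
  have hs1 : size K ≤ |C'| * (l : ℝ) ^ 4 := hs.trans (by gcongr; exact le_abs_self _)
  set A := ((Y : ℝ) - X) / Real.log X
  set B := (X : ℝ) ^ (1 - δ)
  have h4 : N * (l : ℝ) ^ 2 ≤ 2 * (N * (l * (l - 1))) := by
    nlinarith [mul_nonneg hN0
      (mul_nonneg (by linarith : (0 : ℝ) ≤ l) (by linarith : (0 : ℝ) ≤ l - 2))]
  have h5 : C * size K * B ≤ C * (|C'| * (l : ℝ) ^ 4) * B := by gcongr
  have hl0 : (0 : ℝ) < (l : ℝ) ^ 2 := by positivity
  have h6 : (D : ℝ) ≤ D * ((l : ℝ) ^ 2 * B) := le_mul_of_one_le_right (Nat.cast_nonneg _)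
    (one_le_mul_of_one_le_of_one_le (by nlinarith) hB)
  have h7 : (N : ℝ) ≤ 2 * d * A / (l : ℝ) ^ 2 + 2 * d * C * |C'| * ((l : ℝ) ^ 2 * B) := by
    rw [← mul_le_mul_iff_of_pos_right hl0]
    have e : (2 * d * A / (l : ℝ) ^ 2 + 2 * d * C * |C'| * ((l : ℝ) ^ 2 * B)) * (l : ℝ) ^ 2 =
        2 * (d * (A + C * (|C'| * (l : ℝ) ^ 4) * B)) := by
      field_simp
    rw [e]
    linarith [mul_le_mul_of_nonneg_left (h1.trans (add_le_add le_rfl h5)) (Nat.cast_nonneg d)]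
  linarith

theorem sp_so {δ : ℝ} (hδ : δ ≤ 1) (hC : CH δ) (g : ℤ[X]) (hz : NR g) : SP δ g ∧ SO g := by
  classical
  induction g using WfDvdMonoid.induction_on_irreducible with
  | zero => exact ((hz 0 (map_zero _)).1 rfl).elim
  | unit u hu =>
    have k : ∀ p : ℕ, p.Prime → ∀ r : ZMod p, aeval r u ≠ 0 := fun p hp r => by
      have := Fact.mk hp
      exact (hu.map (aeval r)).ne_zero
    refine ⟨⟨0, 0, 0, le_rfl, le_rfl, fun l _ _ X Y _ _ _ => ?_⟩,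
      0, fun K _ => ⟨∅, by simp, fun p m hp _ _ r h => (k p hp r h).elim⟩⟩
    rw [filter_eq_empty_iff.2 fun p _ ⟨h1, _, r, h2, _⟩ => k p h1 r h2]
    simp
  | mul a i _ hi ih =>
    obtain ⟨⟨D, C, l₀, d0, c0, h1⟩, E, h2⟩ := ih fun z h => hz z (by rw [map_mul, h, mul_zero])
    have hz' : NR i := fun z h => hz z (by rw [map_mul, h, zero_mul])
    obtain ⟨D', C', l₁, d1, c1, h3⟩ := sp_irr hδ hC hi hz'
    obtain ⟨E', h4⟩ := so_irr hi hz'
    have k : ∀ p : ℕ, p.Prime → ∀ r : ZMod p, aeval r (i * a) = 0 →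
        aeval r i = 0 ∨ aeval r a = 0 := fun p hp r h => by
      have := Fact.mk hp
      rwa [map_mul, mul_eq_zero] at h
    refine ⟨⟨D + D', C + C', l₀ + l₁, by positivity, by positivity,
      fun l hl hl0 X Y a1 a2 a3 => ?_⟩, E + E', fun K hK => ?_⟩
    · have h5 : ((Ioc X Y).filter (Bd (i * a) l)).card ≤
          ((Ioc X Y).filter (Bd a l)).card + ((Ioc X Y).filter (Bd i l)).card := by
        refine (card_le_card fun p hp => ?_).trans (card_union_le _ _)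
        obtain ⟨p1, p2, p3, r, p4, p5⟩ := mem_filter.1 hp
        rcases k p p2 r p4 with h | h
        · exact mem_union_right _ (mem_filter.2 ⟨p1, p2, p3, r, h, p5⟩)
        · exact mem_union_left _ (mem_filter.2 ⟨p1, p2, p3, r, h, p5⟩)
      have h6 := (Nat.cast_le (α := ℝ)).2 h5
      rw [Nat.cast_add] at h6
      refine h6.trans ((add_le_add (h1 l hl (by omega) X Y a1 a2 a3)
        (h3 l hl (by omega) X Y a1 a2 a3)).trans (le_of_eq ?_))
      ring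
    · obtain ⟨T, t1, t2⟩ := h2 K hK
      obtain ⟨T', t3, t4⟩ := h4 K hK
      refine ⟨T ∪ T', (card_union_le _ _).trans (by rw [add_mul]; omega),
        fun p m hp m1 m2 r h5 h6 => ?_⟩
      rcases k p hp r h5 with h | h
      · exact mem_union_right _ (t4 p m hp m1 m2 r h h6)
      · exact mem_union_left _ (t2 p m hp m1 m2 r h h6)

end Vale.Agent.N016B
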