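import Vale.Agent.N016.Cls
import Vale.Agent.N016.Big
import Vale.Agent.N016B.Poly

/-!
P016: many primes of a class modulo which no root of `g` is an `l`-th power, `l` odd.
-/

open Finset Filter Polynomial

namespace Vale.Agent.N016B

open Vale.Agent.P005 Vale.Agent.P005Z Vale.Agent.P016Z Vale.Agent.P016Z.Art Vale.Agent.N016

/-- no root of `g` modulo `p` is zero or an `l`-th power for an odd prime `l ∣ p - 1` -/
def Gd (g : ℤ[X]) (p : ℕ) : Prop := ∀ r : ZMod p, aeval r g = 0 →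
  r ≠ 0 ∧ ∀ l : ℕ, l.Prime → l ≠ 2 → l ∣ p - 1 → r ^ ((p - 1) / l) ≠ 1

open Classical in
theorem dens (h2 : CNTC) {δ : ℝ} (hδ : 0 < δ) (hδ1 : δ ≤ 1 / 2) {g : ℤ[X]} (hS : SP δ g)
    (hO : SO g) {v ρ : ℕ} (hv : v ≠ 0) (hρ : ρ.Coprime v)
    (hl : ∀ l : ℕ, l.Prime → l ∣ v → ρ ≡ 1 [MOD l] → l = 2) :
    ∃ c : ℝ, 0 < c ∧ ∀ᶠ X : ℕ in atTop, c * (X / Real.log X) ≤
      (((Ioc X (2 * X)).filter fun p : ℕ => p.Prime ∧ p ≡ ρ [MOD v] ∧ Gd g p).card : ℝ) := by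
  obtain ⟨D, C, l₀, hD0, hC0, hS'⟩ := hS
  obtain ⟨E, hO⟩ := hO
  obtain ⟨κ₀, hκ₀, hbig⟩ := big h2 (η := δ / 4) (by positivity) (by linarith)
  have hφ : (0 : ℝ) < Nat.totient v := by
    exact_mod_cast Nat.totient_pos.2 (Nat.pos_of_ne_zero hv)
  set κ := κ₀ / Nat.totient v with hκd
  have hκ : 0 < κ := by positivity
  obtain ⟨j, hj1, hj2⟩ : ∃ j : ℕ, (16 * (D + 1)) ^ 2 / κ ^ 2 ≤ j ∧ l₀ ≤ j :=
    ⟨⌈(16 * (D + 1)) ^ 2 / κ ^ 2⌉₊ + l₀, by
      push_cast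
      linarith [Nat.le_ceil ((16 * (D + 1)) ^ 2 / κ ^ 2), Nat.cast_nonneg (α := ℝ) l₀],
      Nat.le_add_left _ _⟩
  set L := (range (2 * j + 3)).filter fun l => l.Prime ∧ ¬ l ∣ v ∧ l ≠ 2 with hL
  obtain ⟨M, R, m0, m1, m2, m3, m4, m5, m6⟩ := classes hv ρ L
    fun l hl => ⟨(mem_filter.1 hl).2.1, (mem_filter.1 hl).2.2.1⟩
  obtain ⟨p0, p1⟩ := prod_ge j L fun l hl => by
    obtain ⟨b1, b2, -, b3⟩ := mem_filter.1 hl
    exact ⟨b2, b3, mem_range.1 b1⟩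
  generalize ∏ l ∈ L, (((l : ℝ) - 2) / ((l : ℝ) - 1)) = P at m2 p0 p1
  have hj0 : (0 : ℝ) ≤ j := Nat.cast_nonneg j
  have hP : 16 * (D + 1) / (2 * (j : ℝ) + 3) ≤ κ * P := by
    refine abs_le_of_sq_le_sq' ?_ (by positivity) |>.2
    rw [mul_pow]
    refine le_trans ?_ (mul_le_mul_of_nonneg_left p1 (sq_nonneg κ))
    rw [div_le_iff₀ (by positivity)] at hj1
    rw [div_pow, mul_one_div, div_le_div_iff₀ (by positivity) (by positivity)]
    generalize (16 * (D + 1)) ^ 2 = Z at hj1 ⊢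
    nlinarith [mul_le_mul_of_nonneg_left hj1 (show 0 ≤ 4 * (j : ℝ) + 1 by positivity),
      sq_nonneg κ, mul_nonneg hj0 (sq_nonneg κ)]
  have hP0 : 0 < κ * P := lt_of_lt_of_le (by positivity) hP
  have hcop : ∀ x ∈ R, x.Coprime M := fun x hx => Nat.coprime_of_dvd fun q hq hqx hqM => by
    obtain ⟨b1, b2⟩ := m6 x hx
    rcases m5 q hq hqM with h | h
    · exact hq.one_lt.ne' (Nat.eq_one_of_dvd_coprimes hρ
        (((b1.of_dvd h).dvd_iff dvd_rfl).1 hqx) h)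
    · exact (b2 q h).1 hqx
  have hφM : (0 : ℝ) < Nat.totient M := by
    exact_mod_cast Nat.totient_pos.2 (Nat.pos_of_ne_zero m0)
  have hR : κ₀ * ((R.card : ℝ) / Nat.totient M) = κ * P := by
    rw [hκd, div_mul_eq_mul_div, mul_div_assoc]
    congr 1
    rw [div_eq_div_iff hφM.ne' hφ.ne', m2, mul_comm]
  refine ⟨κ * P / 4, by positivity, ?_⟩
  filter_upwards [hbig M R m0 m1 hcop 1 one_pos le_rfl,
    ev2 C 1 (by positivity : 0 < δ / 4) (by positivity : 0 < κ * P / 8),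
    ev2 E 1 (by norm_num : (0 : ℝ) < 1 / 2) (by positivity : 0 < κ * P / 8),
    eventually_ge_atTop 2] with X e0 e2 e3 e5
  rw [hR, one_mul, show (1 + 1 : ℝ) * X = (2 * X : ℕ) by push_cast; ring, Nat.floor_natCast] at e0
  have hX1 : (1 : ℝ) < X := by exact_mod_cast (by omega : 1 < X)
  have hX : (0 : ℝ) < X := by linarith
  set y := Real.log X with hy
  have hy0 : 0 < y := Real.log_pos hX1
  set L1 := (X : ℝ) ^ (δ / 4) with hL1
  have hL1pos : 0 < L1 := Real.rpow_pos_of_pos hX _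
  obtain ⟨T, hT, hT'⟩ := hO ⌊L1⌋₊ (Nat.le_floor (by
    rw [Nat.cast_one]; exact Real.one_le_rpow hX1.le (by positivity)))
  set wi := (Icc (2 * j + 3) ⌊L1⌋₊).filter Nat.Prime with hwin
  have hsub : ((Ioc X (2 * X)).filter fun p => p.Prime ∧ p % M ∈ R ∧
      ∃ m Q : ℕ, Q.Prime ∧ p - 1 = m * Q ∧ m ≤ ⌊L1⌋₊) ⊆
      ((Ioc X (2 * X)).filter fun p : ℕ => p.Prime ∧ p ≡ ρ [MOD v] ∧ Gd g p) ∪
        (wi.biUnion (fun l => (Ioc X (2 * X)).filter (Bd g l)) ∪ T) := by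
    intro p hp
    obtain ⟨hp1, hp2, hp3, m, Q, hQ, he, hm⟩ := mem_filter.1 hp
    obtain ⟨b1, b2⟩ := m6 _ hp3
    have b3 := (Nat.mod_modEq p M).symm
    have b4 := (b3.of_dvd m3).trans b1
    have b5 := hp2.two_le
    have hm0 : m ≠ 0 := by
      rintro rfl
      omega
    by_cases hG : Gd g p
    · exact mem_union_left _ (mem_filter.2 ⟨hp1, hp2, b4, hG⟩)
    refine mem_union_right _ ?_
    by_cases hpT : p ∈ T
    · exact mem_union_right _ hpT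
    refine mem_union_left _ ?_
    by_contra hc
    refine hG fun r hr => ⟨fun h => hpT (hT' p m hp2 (by omega) hm r hr (Or.inl h)),
      fun l l1 l2 l3 l4 => ?_⟩
    have l5 : p ≡ 1 [MOD l] := ((Nat.modEq_iff_dvd' hp2.one_le).2 l3).symm
    have l6 : 2 * j + 3 ≤ l := not_lt.1 fun h => by
      have l7 : l ∈ L := mem_filter.2 ⟨mem_range.2 h, l1,
        fun h' => l2 (hl l l1 h' ((b4.of_dvd h').symm.trans l5)), l2⟩
      exact (b2 l l7).2 ((b3.of_dvd (m4 l l7)).symm.trans l5)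
    rcases (Nat.Prime.dvd_mul l1).1 (he ▸ l3) with h | h
    · exact hc (mem_biUnion.2 ⟨l, mem_filter.2 ⟨mem_Icc.2
        ⟨l6, (Nat.le_of_dvd (by omega) h).trans hm⟩, l1⟩, mem_filter.2 ⟨hp1, hp2, l3, r, hr, l4⟩⟩)
    · obtain rfl := (Nat.prime_dvd_prime_iff_eq l1 hQ).1 h
      rw [he, Nat.mul_div_cancel _ l1.pos] at l4
      exact hpT (hT' p m hp2 (by omega) hm r hr (Or.inr l4))
  have hcard := (card_le_card hsub).trans ((card_union_le _ _).trans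
    (Nat.add_le_add_left ((card_union_le _ _).trans (Nat.add_le_add card_biUnion_le hT)) _))
  have hcard' := (Nat.cast_le (α := ℝ)).2 hcard
  rw [Nat.cast_add, Nat.cast_add, Nat.cast_sum, Nat.cast_mul, Nat.cast_mul] at hcard'
  have hXδ : 0 ≤ (X : ℝ) ^ (1 - δ) := Real.rpow_nonneg hX.le _
  have hfl : (⌊L1⌋₊ : ℝ) ≤ L1 := Nat.floor_le hL1pos.le
  have hbad : ∑ l ∈ wi, (((Ioc X (2 * X)).filter (Bd g l)).card : ℝ) ≤
      D * (X / y) * (2 / (2 * (j : ℝ) + 3)) + L1 * (C * (L1 ^ 2 * (X : ℝ) ^ (1 - δ))) := by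
    have s1 : ∀ l ∈ wi, (((Ioc X (2 * X)).filter (Bd g l)).card : ℝ) ≤
        D * (X / y) * (1 / (l : ℝ) ^ 2) + C * (L1 ^ 2 * (X : ℝ) ^ (1 - δ)) := by
      intro l hl
      obtain ⟨hl1, hl2⟩ := mem_filter.1 hl
      obtain ⟨hl3, hl4⟩ := mem_Icc.1 hl1
      have b2 : (l : ℝ) ≤ L1 := (Nat.le_floor_iff hL1pos.le).1 hl4
      refine (hS' l hl2 (by omega) X (2 * X) e5 (by omega) le_rfl).trans ?_
      rw [mul_one_div, Nat.cast_mul, Nat.cast_two, two_mul, add_sub_cancel_right]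
      gcongr
    refine (sum_le_sum s1).trans ?_
    rw [sum_add_distrib, ← mul_sum, sum_const, nsmul_eq_mul]
    refine add_le_add (mul_le_mul_of_nonneg_left ?_ (by positivity))
      (mul_le_mul_of_nonneg_right ?_ (by positivity))
    · have b1 := sum_inv_sq_win (L := ((2 * j + 3 : ℕ) : ℝ)) (by push_cast; linarith) ⌊L1⌋₊
      rw [Nat.ceil_natCast] at b1
      push_cast at b1
      exact le_trans (sum_le_sum_of_subset_of_nonneg (filter_subset _ _)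
        fun l _ _ => by positivity) b1
    · have b2 : wi.card ≤ ⌊L1⌋₊ := by
        refine (card_filter_le _ _).trans ?_
        rw [Nat.card_Icc]
        omega
      exact ((Nat.cast_le (α := ℝ)).2 b2).trans hfl
  have t1 : D * (X / y) * (2 / (2 * (j : ℝ) + 3)) ≤ X / y * (κ * P / 8) := by
    calc _ ≤ (D + 1) * (X / y) * (2 / (2 * (j : ℝ) + 3)) := by gcongr; linarith
      _ = X / y * (16 * (D + 1) / (2 * (j : ℝ) + 3) / 8) := by ring
      _ ≤ _ := by gcongr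
  have t0 : 0 ≤ X / y * (κ * P) := by positivity
  have t2 : L1 * (C * (L1 ^ 2 * (X : ℝ) ^ (1 - δ))) ≤ X / y * (κ * P / 8) := by
    have b1 : L1 * (C * (L1 ^ 2 * (X : ℝ) ^ (1 - δ))) =
        X / y * (C * (y ^ 1 * (X : ℝ) ^ (-(δ / 4)))) := by
      have b2 : L1 ^ 3 * (X : ℝ) ^ (1 - δ) = X * (X : ℝ) ^ (-(δ / 4)) := by
        rw [hL1, ← Real.rpow_mul_natCast hX.le, ← Real.rpow_add hX,
          ← Real.rpow_one_add' hX.le (by linarith)]
        congr 1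
        push_cast
        ring
      calc _ = C * (L1 ^ 3 * (X : ℝ) ^ (1 - δ)) := by ring
        _ = _ := by rw [b2]; field_simp
    rw [b1]
    exact mul_le_mul_of_nonneg_left e2 (by positivity)
  have t3 : (E : ℝ) * ((⌊L1⌋₊ : ℝ) * ⌊L1⌋₊) ≤ X / y * (κ * P / 8) := by
    have b1 : L1 * L1 ≤ X * (X : ℝ) ^ (-(1 / 2) : ℝ) := by
      rw [hL1, ← Real.rpow_add hX, ← Real.rpow_one_add' hX.le (by norm_num)]
      exact Real.rpow_le_rpow_of_exponent_le hX1.le (by linarith)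
    calc _ ≤ E * (L1 * L1) := by gcongr
      _ ≤ E * (X * (X : ℝ) ^ (-(1 / 2) : ℝ)) := by gcongr
      _ = X / y * (E * (y ^ 1 * (X : ℝ) ^ (-(1 / 2) : ℝ))) := by field_simp
      _ ≤ _ := mul_le_mul_of_nonneg_left e3 (by positivity)
  linarith

end Vale.Agent.N016B
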