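import Vale.Agent.N016.Main
import Vale.Agent.N016B.Dens
import Vale.Agent.N016B.Cls

/-!
P016: primitive roots among the roots of a polynomial, simultaneous primitive roots, Fibonacci
primitive roots.
-/

open Finset Filter Polynomial NumberTheorySymbols

namespace Vale.Agent.N016B

open Vale.Agent.P016Z Vale.Agent.N016

theorem cheb1' : CHEB1 :=
  cheb1 (θ := 11 / 12) (by norm_num) (by norm_num) hcont hbd expLog
    (nonVan (by norm_num) (by norm_num) hcont expLog muInv spl12 mub)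

theorem Gd.two_pow {g : ℤ[X]} {p : ℕ} (hp : p.Prime) (h : Gd g p) {r : ZMod p}
    (hr : aeval r g = 0) :
    (∃ k, p - 1 = 2 ^ k * orderOf r) ∧ (¬ IsSquare r → IsPrimitiveRoot r (p - 1)) := by
  obtain ⟨h0, h1⟩ := h r hr
  have := Fact.mk hp
  have hp2 := hp.two_le
  have e := ZMod.pow_card_sub_one_eq_one h0
  constructor
  · obtain ⟨n, hn⟩ := orderOf_dvd_of_pow_eq_one e
    have hn0 : n ≠ 0 := by
      rintro rfl
      omega
    refine ⟨n.primeFactorsList.length, ?_⟩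
    rw [← Nat.eq_prime_pow_of_unique_prime_dvd hn0 fun {l} hl hd => ?_, mul_comm, ← hn]
    by_contra h2
    obtain ⟨m, rfl⟩ := hd
    refine h1 l hl h2 (hn ▸ (dvd_mul_right l m).mul_left _) ?_
    rw [hn, mul_left_comm, Nat.mul_div_cancel_left _ hl.pos, pow_mul, pow_orderOf_eq_one, one_pow]
  · intro h2
    rw [IsPrimitiveRoot.iff_orderOf]
    refine orderOf_eq_of_pow_and_pow_div_prime (by omega) e fun l hl hd h3 => ?_
    by_cases h4 : l = 2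
    · subst h4
      apply h2
      rw [ZMod.euler_criterion p h0, ← h3]
      congr 1
      omega
    · exact h1 l hl h4 hd h3

theorem many {g : ℤ[X]} (hg : NR g) {v ρ : ℕ} (hv : v ≠ 0) (hρ : ρ.Coprime v)
    (hl : ∀ l : ℕ, l.Prime → l ∣ v → ρ ≡ 1 [MOD l] → l = 2) (P : ℕ → Prop)
    (hP : ∀ p : ℕ, p.Prime → p ≡ ρ [MOD v] → Gd g p → P p) :
    ∃ c : ℝ, 0 < c ∧ ∀ᶠ x : ℝ in atTop,
      c * (x / Real.log x) ≤ ({p : ℕ | (p : ℝ) ≤ x ∧ p.Prime ∧ P p}.ncard : ℝ) := by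
  classical
  obtain ⟨δ, h0, h1, h2⟩ := ch_of cheb1'
  obtain ⟨h3, h4⟩ := sp_so (by linarith) h2 g hg
  obtain ⟨c, hc, h⟩ := dens cntc' h0 h1 h3 h4 hv hρ hl
  obtain ⟨N₀, hN⟩ := eventually_atTop.1 (h.and (eventually_ge_atTop 2))
  refine ⟨c / 4, by positivity, eventually_atTop.2 ⟨2 * N₀, fun x hx => ?_⟩⟩
  have hx0 : 0 ≤ x / 2 := by linarith [Nat.cast_nonneg (α := ℝ) N₀]
  obtain ⟨k1, k2⟩ := hN ⌊x / 2⌋₊ (Nat.le_floor (by linarith))
  have b1 : (2 : ℝ) ≤ ⌊x / 2⌋₊ := by exact_mod_cast k2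
  have b2 := Nat.floor_le hx0
  have b3 := Nat.lt_floor_add_one (x / 2)
  have b4 : 0 < Real.log ⌊x / 2⌋₊ := Real.log_pos (by linarith)
  have b5 : x / Real.log x ≤ 4 * ⌊x / 2⌋₊ / Real.log ⌊x / 2⌋₊ :=
    div_le_div₀ (by linarith) (by linarith) b4 (Real.log_le_log (by linarith) (by linarith))
  refine le_trans ?_ (k1.trans (Nat.cast_le.2 ?_))
  · calc c / 4 * (x / Real.log x) ≤ c / 4 * (4 * ⌊x / 2⌋₊ / Real.log ⌊x / 2⌋₊) := by gcongr
      _ = _ := by ring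
  · rw [← Set.ncard_coe_finset]
    refine Set.ncard_le_ncard (fun p hp => ?_) ((Set.finite_le_nat ⌊x⌋₊).subset
      fun p hp => Nat.le_floor hp.1)
    obtain ⟨p1, p2, p3, p4⟩ := mem_filter.1 (mem_coe.1 hp)
    have p5 : (p : ℝ) ≤ 2 * ⌊x / 2⌋₊ := by exact_mod_cast (mem_Ioc.1 p1).2
    exact ⟨by linarith, p2, hP p p2 p3 p4⟩

theorem roots (g : ℤ[X]) (M ρ : ℕ)
    (hg : ∀ z : ℂ, aeval z g = 0 → z ≠ 0 ∧ ∀ n, 0 < n → z ^ n ≠ 1) (hM : 0 < M)
    (hρ : ρ.Coprime M) (hl : ∀ l : ℕ, l.Prime → l ∣ M → ρ ≡ 1 [MOD l] → l = 2) :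
    ∃ c : ℝ, 0 < c ∧ ∀ᶠ x : ℝ in atTop, c * (x / Real.log x) ≤
      ({p : ℕ | (p : ℝ) ≤ x ∧ p.Prime ∧ p ≡ ρ [MOD M] ∧ ∀ r : ZMod p, aeval r g = 0 →
        (∃ k, p - 1 = 2 ^ k * orderOf r) ∧ (¬ IsSquare r → IsPrimitiveRoot r (p - 1))}.ncard : ℝ) :=
  many hg hM.ne' hρ hl _ fun _ hp h1 h2 => ⟨h1, fun _ hr => h2.two_pow hp hr⟩

theorem simul (A : Finset ℚ) (h1 : -1 ∉ A)
    (h2 : ∀ T ⊆ A, (Odd T.card → ¬ IsSquare (∏ a ∈ T, a)) ∧
      (Even T.card → ¬ IsSquare (-3 * ∏ a ∈ T, a))) :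
    ∃ c : ℝ, 0 < c ∧ ∀ᶠ x : ℝ in atTop, c * (x / Real.log x) ≤
      ({p : ℕ | (p : ℝ) ≤ x ∧ p.Prime ∧ ∀ a ∈ A, ∃ r : ZMod p,
        a.den * r = a.num ∧ IsPrimitiveRoot r (p - 1)}.ncard : ℝ) := by
  have sq : ∀ (x : ℚ) (k : ℕ), IsSquare ((-3) ^ (k + k) * x) → IsSquare x := by
    rintro x k ⟨y, hy⟩
    refine ⟨y / (-3) ^ k, ?_⟩
    rw [div_mul_div_comm, ← hy, ← pow_add, mul_div_cancel_left₀ _ (by positivity)]
  obtain ⟨v, ρ, c1, c2, c3, c4⟩ := cls_many A fun T hT e => by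
    rcases T.card.even_or_odd with ⟨k, hk⟩ | ⟨k, hk⟩
    · refine (h2 T hT).2 ⟨k, hk⟩ (sq _ k ?_)
      rwa [hk, pow_succ, mul_assoc] at e
    · refine (h2 T hT).1 ⟨k, hk⟩ (sq _ (k + 1) ?_)
      rwa [hk, show 2 * k + 1 + 1 = k + 1 + (k + 1) by ring] at e
  refine many (g := ∏ a ∈ A, (C (a.den : ℤ) * X - C a.num)) (fun z hz => ?_) c1 c2 c3 _
    fun p hp h3 h4 a ha => ?_
  · rw [map_prod, prod_eq_zero_iff] at hz
    obtain ⟨a, ha, hz⟩ := hz
    have d0 : (a.den : ℂ) ≠ 0 := by exact_mod_cast a.den_nz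
    obtain rfl : z = a := by
      simp only [map_sub, map_mul, aeval_X, eq_intCast, map_natCast,
        map_intCast] at hz
      rw [Rat.cast_def, eq_div_iff d0]
      linear_combination hz
    have h5 := (h2 {a} (by simpa using ha)).1 (by simp)
    rw [prod_singleton] at h5
    refine ⟨fun e => h5 ?_, fun n hn e => ?_⟩
    · obtain rfl : a = 0 := by exact_mod_cast e
      exact IsSquare.zero
    · have h6 : a ^ n = 1 := by exact_mod_cast e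
      rcases (pow_eq_one_iff_of_ne_zero hn.ne').1 h6 with rfl | ⟨rfl, -⟩
      · exact h5 IsSquare.one
      · exact h1 ha
  · have := Fact.mk hp
    have h5 := ZMod.nonsquare_of_jacobiSym_eq_neg_one (c4 p h3 a ha)
    push_cast at h5
    have d0 : (a.den : ZMod p) ≠ 0 := fun e => h5 (by rw [e, mul_zero]; exact IsSquare.zero)
    refine ⟨a.num / a.den, mul_div_cancel₀ _ d0, (h4.two_pow hp ?_).2 fun e => h5 ?_⟩
    · rw [map_prod]
      refine prod_eq_zero ha ?_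
      simp only [map_sub, map_mul, aeval_X, eq_intCast, map_natCast, map_intCast]
      rw [mul_div_cancel₀ _ d0, sub_self]
    · rw [← div_mul_cancel₀ (a.num : ZMod p) d0, mul_assoc]
      exact e.mul (IsSquare.mul_self _)

theorem fib (k : ℤ) (hk : k ≠ 0) :
    ∃ c : ℝ, 0 < c ∧ ∀ᶠ x : ℝ in atTop, c * (x / Real.log x) ≤
      ({p : ℕ | (p : ℝ) ≤ x ∧ p.Prime ∧ ∃ r : ZMod p,
        r ^ 2 = k * r + 1 ∧ IsPrimitiveRoot r (p - 1)}.ncard : ℝ) := by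
  obtain ⟨D, hD⟩ : ∃ D : ℕ, D = k.natAbs ^ 2 + 3 := ⟨_, rfl⟩
  have hD' : ((D + 1 : ℕ) : ℤ) = k ^ 2 + 4 := by rw [hD]; push_cast; rw [sq_abs]; ring
  have e0 : ∀ {R : Type} [CommRing R] (r : R),
      aeval r (X ^ 2 - C k * X - 1 : ℤ[X]) = r ^ 2 - k * r - 1 := fun r => by simp
  refine many (g := X ^ 2 - C k * X - 1) (v := 4 * (D + 1)) (ρ := 4 * D + 3) (fun z hz => ?_)
    (by omega) ?_ (fun l h1 h2 h3 => ?_) _ fun p hp h3 h4 => ?_
  · rw [e0] at hz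
    refine ⟨fun e => by simp [e] at hz, fun n hn e => hk ?_⟩
    have h1 : ‖z‖ = 1 := Complex.norm_eq_one_of_pow_eq_one e hn.ne'
    have h2 : z * (starRingEnd ℂ) z = 1 := by rw [Complex.mul_conj', h1]; simp
    have h3 : z - (starRingEnd ℂ) z = k := by
      linear_combination (starRingEnd ℂ) z * hz - (z - k) * h2
    have h4 := congrArg Complex.re h3
    simpa using h4.symm
  · rw [show 4 * (D + 1) = 4 * D + 3 + 1 by ring]
    simp
  · have h4 : l ∣ 4 * D + 3 - 1 := (Nat.modEq_iff_dvd' (by omega)).1 h3.symm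
    have h5 : l ∣ 2 := (Nat.dvd_add_right h4).1 (by
      rwa [show 4 * D + 3 - 1 + 2 = 4 * (D + 1) by omega])
    exact (Nat.prime_dvd_prime_iff_eq h1 Nat.prime_two).1 h5
  have := Fact.mk hp
  have p4 : p % 4 = 3 := by
    have := h3.of_dvd (dvd_mul_right 4 _)
    rw [Nat.ModEq] at this
    omega
  have o1 : Odd (4 * D + 3) := ⟨2 * D + 1, by ring⟩
  have hJ : J(((D + 1 : ℕ) : ℤ) | p) = 1 := by
    have h5 : J(4 * ((D + 1 : ℕ) : ℤ) | 4 * D + 3) = J(1 | 4 * D + 3) :=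
      jacobiSym.mod_left' (Int.ModEq.symm ((Int.modEq_iff_dvd).2 ⟨1, by push_cast; ring⟩))
    rw [jacobiSym.mul_left, jacobiSym.at_four o1, one_mul, jacobiSym.one_left] at h5
    rw [jacobiSym.mod_right' _ (by rw [Nat.odd_iff]; omega), h3, ← jacobiSym.mod_right' _ o1, h5]
  obtain ⟨s, hs⟩ := ZMod.isSquare_of_jacobiSym_eq_one hJ
  rw [hD'] at hs
  push_cast at hs
  have t0 : (2 : ZMod p) ≠ 0 := by
    intro e
    have := (Nat.prime_dvd_prime_iff_eq hp Nat.prime_two).1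
      ((ZMod.natCast_eq_zero_iff 2 p).1 (by exact_mod_cast e))
    omega
  obtain ⟨r, hr⟩ : ∃ r : ZMod p, r ^ 2 = k * r + 1 := ⟨(k + s) / 2, by
    field_simp
    linear_combination -hs⟩
  have key : ∀ r : ZMod p, r ^ 2 = k * r + 1 → ¬ IsSquare r →
      ∃ r : ZMod p, r ^ 2 = k * r + 1 ∧ IsPrimitiveRoot r (p - 1) := fun r h5 h6 =>
    ⟨r, h5, (h4.two_pow hp (by rw [e0, h5]; ring)).2 h6⟩
  by_cases h5 : IsSquare r
  · refine key (k - r) (by linear_combination hr) fun h6 => ?_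
    have h7 := h5.mul h6
    rw [show r * (k - r) = -1 by linear_combination -hr] at h7
    exact ZMod.exists_sq_eq_neg_one_iff.1 h7 p4
  · exact key r hr h5

theorem artin_iff (a : ℤ) :
    Tendsto (fun x : ℝ => {p : ℕ | (p : ℝ) ≤ x ∧ p.Prime ∧ ¬ (p : ℤ) ∣ a ∧
      IsLeast {k : ℕ | 1 ≤ k ∧ a ^ k ≡ 1 [ZMOD p]} (p - 1)}.ncard) atTop atTop ↔
      a ≠ -1 ∧ ¬ IsSquare a := by
  have e0 : ∀ p k : ℕ, a ^ k ≡ 1 [ZMOD p] ↔ (a : ZMod p) ^ k = 1 := fun p k => by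
    rw [← ZMod.intCast_eq_intCast_iff]
    push_cast
    rfl
  constructor
  · intro h
    by_contra hc
    obtain ⟨x, hx⟩ := (h.eventually_ge_atTop 5).exists
    refine absurd (hx.trans (Set.ncard_le_ncard (t := (range 4 : Finset ℕ)) ?_)) (by simp)
    rintro p ⟨-, p1, p2, -, p3⟩
    rw [coe_range, Set.mem_Iio]
    by_contra p4
    have := Fact.mk p1
    by_cases h1 : a = -1
    · have : p - 1 ≤ 2 := p3 ⟨by norm_num, by rw [h1]; rfl⟩
      omega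
    obtain ⟨b, rfl⟩ : IsSquare a := by tauto
    obtain ⟨m, hm⟩ := p1.odd_of_ne_two (by omega)
    have : p - 1 ≤ m := p3 ⟨by omega, (e0 p m).2 (by
      rw [Int.cast_mul, ← sq, ← pow_mul, show 2 * m = p - 1 by omega]
      exact ZMod.pow_card_sub_one_eq_one fun e =>
        p2 (((ZMod.intCast_zmod_eq_zero_iff_dvd b p).1 e).mul_left b))⟩
    omega
  · rintro ⟨h1, h2⟩
    have h3 := artin_of_mub (by norm_num) (by norm_num) mub a h1 h2
    refine tendsto_atTop.2 fun n => ?_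
    obtain ⟨T, t1, rfl⟩ := h3.exists_subset_card_eq n
    filter_upwards [eventually_ge_atTop ((T.sup id : ℕ) : ℝ)] with x hx
    rw [← Set.ncard_coe_finset]
    refine Set.ncard_le_ncard (fun p hp => ?_) ((Set.finite_le_nat ⌊x⌋₊).subset
      fun p hp => Nat.le_floor hp.1)
    obtain ⟨p1, p2, p3⟩ := t1 hp
    have p4 := p1.two_le
    refine ⟨(Nat.cast_le.2 (le_sup (f := id) hp)).trans hx, p1, p2,
      ⟨by omega, (e0 _ _).2 (p3 ▸ pow_orderOf_eq_one _)⟩, fun k hk => ?_⟩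
    exact p3 ▸ orderOf_le_of_pow_eq_one hk.1 ((e0 _ _).1 hk.2)

end Vale.Agent.N016B
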