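import Vale.Agent.N016B.Main

/-!
Artin's primitive root conjecture for roots of polynomials in residue classes, for several
rational numbers at once, and for Fibonacci primitive roots.
-/

open Filter Polynomial

/-- (1) If no complex root of `g` is zero or a root of unity, then for a positive proportion of the
primes `p` of a class `ρ` modulo `M` (no odd prime dividing `M` and `ρ - 1`), all roots of `g`
modulo `p` have index a power of `2`, and the roots which are not squares are primitive roots.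
(2) Simultaneous primitive roots.
(3) Primitive roots with `r ^ 2 = k r + 1`. -/
theorem Vale.Agent.N016B.simultaneous_summary :
    (∀ (g : ℤ[X]) (M ρ : ℕ), (∀ z : ℂ, aeval z g = 0 → z ≠ 0 ∧ ∀ n, 0 < n → z ^ n ≠ 1) →
      0 < M → ρ.Coprime M → (∀ l : ℕ, l.Prime → l ∣ M → ρ ≡ 1 [MOD l] → l = 2) →
      ∃ c : ℝ, 0 < c ∧ ∀ᶠ x : ℝ in atTop, c * (x / Real.log x) ≤
        ({p : ℕ | (p : ℝ) ≤ x ∧ p.Prime ∧ p ≡ ρ [MOD M] ∧ ∀ r : ZMod p, aeval r g = 0 →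
          (∃ k, p - 1 = 2 ^ k * orderOf r) ∧
            (¬ IsSquare r → IsPrimitiveRoot r (p - 1))}.ncard : ℝ)) ∧
    (∀ A : Finset ℚ, -1 ∉ A → (∀ T ⊆ A, (Odd T.card → ¬ IsSquare (∏ a ∈ T, a)) ∧
        (Even T.card → ¬ IsSquare (-3 * ∏ a ∈ T, a))) →
      ∃ c : ℝ, 0 < c ∧ ∀ᶠ x : ℝ in atTop, c * (x / Real.log x) ≤
        ({p : ℕ | (p : ℝ) ≤ x ∧ p.Prime ∧ ∀ a ∈ A, ∃ r : ZMod p,
          a.den * r = a.num ∧ IsPrimitiveRoot r (p - 1)}.ncard : ℝ)) ∧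
    (∀ k : ℤ, k ≠ 0 → ∃ c : ℝ, 0 < c ∧ ∀ᶠ x : ℝ in atTop, c * (x / Real.log x) ≤
      ({p : ℕ | (p : ℝ) ≤ x ∧ p.Prime ∧ ∃ r : ZMod p,
        r ^ 2 = k * r + 1 ∧ IsPrimitiveRoot r (p - 1)}.ncard : ℝ)) :=
  ⟨Vale.Agent.N016B.roots, Vale.Agent.N016B.simul, Vale.Agent.N016B.fib⟩
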